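import Vale.Agent.P079.Averages.Main

/-!
# Subsequences with null arithmetic means give far averages
-/

namespace Vale.Agent.P079.Averages

open Filter Topology

variable {X : Type*} [NormedAddCommGroup X] [NormedSpace ℝ X]

theorem farAverages_of_weakBanachSaks (h : WeakBanachSaks X) : FarAverages X 1 1 := by
  intro u _ _ hnull
  by_contra hcon
  have hN : ∀ m : ℕ, ∃ N, 1 ≤ m → ∀ n : Fin m → ℕ, StrictMono n → (∀ i, N ≤ n i) →
      (m : ℝ) * (1 / 2) < ‖∑ i, u (n i)‖ := by
    intro m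
    by_contra hm
    push Not at hm
    exact hcon ⟨m, 1 / 2, (hm 0).1, by linarith, fun N => (hm N).2⟩
  choose N hN using hN
  obtain ⟨ψ, hψ, hψN⟩ : ∃ ψ : ℕ → ℕ, StrictMono ψ ∧ ∀ k, N k ≤ ψ k :=
    ⟨fun k => k + ∑ i ∈ Finset.range (k + 1), N i,
      strictMono_nat_of_lt_succ fun k => by simp [Finset.sum_range_succ _ (k + 1)]; omega,
      fun k => le_add_left (Finset.single_le_sum (fun i _ => Nat.zero_le (N i))
        (Finset.self_mem_range_succ k))⟩
  obtain ⟨φ, hφ, hlim⟩ := h (fun i => u (ψ i)) fun f => (hnull f).comp hψ.tendsto_atTop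
  set S : ℕ → X := fun k => ∑ i ∈ Finset.range k, u (ψ (φ i)) with hS
  have h2 : Tendsto (fun k => 2 * (‖S (k + k)‖ / ((k + k : ℕ) : ℝ)) + ‖S k‖ / k) atTop (𝓝 0) := by
    simpa [hS, Function.comp_def] using ((hlim.comp (tendsto_atTop_mono
      (fun k => Nat.le_add_left k k) tendsto_id)).const_mul 2).add hlim
  obtain ⟨k, hk, hk'⟩ := ((h2.eventually (gt_mem_nhds (show (0 : ℝ) < 1 / 2 by norm_num))).and
    (eventually_ge_atTop 1)).exists
  have hsum : S (k + k) = S k + ∑ i : Fin k, u (ψ (φ (k + i))) := by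
    rw [hS, Fin.sum_univ_eq_sum_range (fun i => u (ψ (φ (k + i)))) k]
    exact Finset.sum_range_add _ k k
  have h3 := hN k hk' (fun i => ψ (φ (k + i)))
    (fun i j hij => hψ (hφ (Nat.add_lt_add_left hij k)))
    (fun i => (hψN k).trans (hψ.monotone ((k.le_add_right i).trans hφ.le_apply)))
  have h4 : ‖∑ i : Fin k, u (ψ (φ (k + i)))‖ ≤ ‖S (k + k)‖ + ‖S k‖ := by
    rw [show ∑ i : Fin k, u (ψ (φ (k + i))) = S (k + k) - S k by rw [hsum]; abel]
    exact norm_sub_le _ _
  have hkR : (0 : ℝ) < k := by exact_mod_cast hk'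
  push_cast at hk
  field_simp at hk
  nlinarith

end Vale.Agent.P079.Averages
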