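import Mathlib

/-!
# Fixed points of nonexpansive maps through far averages: definitions
-/

namespace Vale.Agent.P079.Averages

open Filter Topology

variable (X : Type*) [NormedAddCommGroup X] [NormedSpace ℝ X]

/-- Every distance-nonincreasing self map of a nonempty convex weakly compact set has a fixed
point. -/
def WeakFPP : Prop :=
  ∀ (C : Set X) (T : X → X), C.Nonempty → Convex ℝ C → IsCompact (toWeakSpace ℝ X '' C) →
    Set.MapsTo T C C → (∀ a ∈ C, ∀ b ∈ C, ‖T a - T b‖ ≤ ‖a - b‖) → ∃ x ∈ C, T x = x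

/-- Every distance-nonincreasing self map of a nonempty closed bounded convex set has a fixed
point. -/
def FPP : Prop :=
  ∀ (C : Set X) (T : X → X), C.Nonempty → Convex ℝ C → IsClosed C → Bornology.IsBounded C →
    Set.MapsTo T C C → (∀ a ∈ C, ∀ b ∈ C, ‖T a - T b‖ ≤ ‖a - b‖) → ∃ x ∈ C, T x = x

/-- The canonical embedding into the bidual is onto. -/
def Reflexive : Prop :=
  Function.Surjective (NormedSpace.inclusionInDoubleDual ℝ X)

variable {X}

/-- Finite-rank operators indexed by finite sets of natural numbers, additive on disjoint sets,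
exhausting the identity, of norm at most `c'` and with complements of norm at most `c`. -/
structure IsDecomposition (P : Finset ℕ → X →L[ℝ] X) (c c' : ℝ) : Prop where
  add : ∀ F G, Disjoint F G → P (F ∪ G) = P F + P G
  finite_rank : ∀ F, FiniteDimensional ℝ (LinearMap.range (P F).toLinearMap)
  norm_le : ∀ F x, ‖P F x‖ ≤ c' * ‖x‖
  norm_sub_le : ∀ F x, ‖x - P F x‖ ≤ c * ‖x‖
  tendsto : ∀ x, Tendsto (fun N => P (Finset.range N) x) atTop (𝓝 x)

variable (X)

/-- Every weakly null sequence of diameter at most one and with norms tending to one has, for some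
`m`, arbitrarily far `m`-term averages of norm at most `D`, where `c (m - 1) + c' D < m`. -/
def FarAverages (c c' : ℝ) : Prop :=
  ∀ u : ℕ → X, (∀ i j, ‖u i - u j‖ ≤ 1) → Tendsto (fun i => ‖u i‖) atTop (𝓝 1) →
    (∀ f : X →L[ℝ] ℝ, Tendsto (fun i => f (u i)) atTop (𝓝 0)) →
    ∃ (m : ℕ) (D : ℝ), 1 ≤ m ∧ c * ((m : ℝ) - 1) + c' * D < m ∧
      ∀ N, ∃ n : Fin m → ℕ, StrictMono n ∧ (∀ i, N ≤ n i) ∧ ‖∑ i, u (n i)‖ ≤ m * D

/-- Every weakly null sequence has a subsequence whose arithmetic means tend to zero in norm. -/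
def WeakBanachSaks : Prop :=
  ∀ u : ℕ → X, (∀ f : X →L[ℝ] ℝ, Tendsto (fun i => f (u i)) atTop (𝓝 0)) →
    ∃ φ : ℕ → ℕ, StrictMono φ ∧
      Tendsto (fun k => ‖∑ i ∈ Finset.range k, u (φ i)‖ / k) atTop (𝓝 0)

end Vale.Agent.P079.Averages
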