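import Vale.Agent.P079.Averages.Minimal

/-!
# Fixed points of nonexpansive maps through far averages
-/

namespace Vale.Agent.P079.Averages

open Filter Topology Set Metric

variable {X : Type*} [NormedAddCommGroup X] [NormedSpace ℝ X]
variable {P : Finset ℕ → X →L[ℝ] X} {c c' : ℝ}

theorem IsDecomposition.map_empty (hP : IsDecomposition P c c') : P ∅ = 0 := by
  have h := hP.add ∅ ∅ (Finset.disjoint_empty_left _)
  simpa using h

theorem IsDecomposition.map_biUnion (hP : IsDecomposition P c c') {ι : Type*} [DecidableEq ι]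
    (W : ι → Finset ℕ) (hW : Pairwise fun i j => Disjoint (W i) (W j)) (s : Finset ι) :
    P (s.biUnion W) = ∑ i ∈ s, P (W i) := by
  induction s using Finset.induction_on with
  | empty => simpa using hP.map_empty
  | insert a s ha ih =>
    rw [Finset.biUnion_insert, hP.add, ih, Finset.sum_insert ha]
    exact (Finset.disjoint_biUnion_right _ _ _).2 fun i hi => hW fun h => ha (h ▸ hi)

theorem IsDecomposition.map_range_Ico (hP : IsDecomposition P c c') {a b : ℕ} (h : a ≤ b) :
    P (Finset.range b) = P (Finset.range a) + P (Finset.Ico a b) := by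
  rw [← hP.add _ _ (Finset.disjoint_left.2 fun i h1 h2 => by
    simp only [Finset.mem_range, Finset.mem_Ico] at h1 h2; omega)]
  congr 1
  ext i
  simp only [Finset.mem_union, Finset.mem_range, Finset.mem_Ico]
  omega

/-- A finite-rank operator is continuous from the weak topology to the norm topology. -/
theorem continuous_weak_of_finite_rank (Q : X →L[ℝ] X)
    (hQ : FiniteDimensional ℝ (LinearMap.range Q.toLinearMap)) :
    Continuous fun z : WeakSpace ℝ X => Q ((toWeakSpace ℝ X).symm z) := by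
  let Q' : X →L[ℝ] LinearMap.range Q.toLinearMap := Q.codRestrict _ fun x => ⟨x, rfl⟩
  let φ := (Module.finBasis ℝ (LinearMap.range Q.toLinearMap)).equivFunL
  have h : Continuous fun z : WeakSpace ℝ X => φ (Q' ((toWeakSpace ℝ X).symm z)) :=
    continuous_pi fun i => WeakBilin.eval_continuous _
      ((ContinuousLinearMap.proj i).comp (φ.toContinuousLinearMap.comp Q'))
  have h' := continuous_subtype_val.comp (φ.symm.continuous.comp h)
  refine h'.congr fun z => ?_
  change ((φ.symm (φ (Q' ((toWeakSpace ℝ X).symm z))) : LinearMap.range Q.toLinearMap) : X) = _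
  rw [φ.symm_apply_apply]
  rfl

variable {T : X → X} {K : Set X}

theorem norm_resolvent_sub_le (hT : ∀ a ∈ K, ∀ b ∈ K, ‖T a - T b‖ ≤ ‖a - b‖) {s : ℝ} (hs : 0 < s)
    (hs1 : s ≤ 1) {a v w : X} (hv : v ∈ K) (hw : w ∈ K) (heq : s • a + (1 - s) • T v = v) :
    ‖v - w‖ ≤ ‖a - w‖ + ‖T w - w‖ / s := by
  have h1 : v - w = s • (a - w) + (1 - s) • (T v - T w) + (1 - s) • (T w - w) := by
    linear_combination (norm := module) -heq
  have h2 : ‖v - w‖ ≤ s * ‖a - w‖ + (1 - s) * ‖v - w‖ + ‖T w - w‖ := by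
    calc ‖v - w‖ ≤ ‖s • (a - w)‖ + ‖(1 - s) • (T v - T w)‖ + ‖(1 - s) • (T w - w)‖ := by
          rw [h1]; exact norm_add₃_le
      _ ≤ _ := by
          rw [norm_smul_of_nonneg hs.le, norm_smul_of_nonneg (by linarith),
            norm_smul_of_nonneg (by linarith)]
          exact add_le_add (add_le_add le_rfl
            (mul_le_mul_of_nonneg_left (hT v hv w hw) (by linarith)))
            (mul_le_of_le_one_left (norm_nonneg _) (by linarith))
  refine le_of_mul_le_mul_left ?_ hs
  rw [mul_add, mul_div_cancel₀ _ hs.ne']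
  linarith

theorem norm_resolvent_sub_resolvent_le (hT : ∀ a ∈ K, ∀ b ∈ K, ‖T a - T b‖ ≤ ‖a - b‖) {s : ℝ}
    (hs : 0 < s) (hs1 : s ≤ 1) {a b v y : X} (hv : v ∈ K) (hy : y ∈ K)
    (hva : s • a + (1 - s) • T v = v) (hyb : s • b + (1 - s) • T y = y) :
    ‖v - y‖ ≤ ‖a - b‖ := by
  have h1 : v - y = s • (a - b) + (1 - s) • (T v - T y) := by
    linear_combination (norm := module) hyb - hva
  have h2 : ‖v - y‖ ≤ s * ‖a - b‖ + (1 - s) * ‖v - y‖ := by
    calc ‖v - y‖ ≤ ‖s • (a - b)‖ + ‖(1 - s) • (T v - T y)‖ := by rw [h1]; exact norm_add_le _ _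
      _ ≤ _ := by
          rw [norm_smul_of_nonneg hs.le, norm_smul_of_nonneg (by linarith)]
          exact add_le_add le_rfl (mul_le_mul_of_nonneg_left (hT v hv y hy) (by linarith))
  exact le_of_mul_le_mul_left (by linarith) hs

theorem norm_map_sub_resolvent_le {s d : ℝ} (hs : 0 < s) {a v : X}
    (hva : s • a + (1 - s) • T v = v) (hd : ‖T v - a‖ ≤ d) : ‖T v - v‖ ≤ s * d := by
  have h1 : T v - v = s • (T v - a) := by linear_combination (norm := module) hva
  rw [h1, norm_smul_of_nonneg hs.le]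
  gcongr

/-- The main theorem. -/
theorem weakFPP_of_farAverages [CompleteSpace X] (hP : IsDecomposition P c c')
    (hav : FarAverages X c c') : WeakFPP X := by
  intro C T hne hconv hwC hmapsC hTC
  obtain ⟨K, hK⟩ := exists_isMinimal hne hconv hwC hmapsC
  have hKw := weakCompact_subset hwC hK.sub hK.convex hK.closed
  have hT : ∀ a ∈ K, ∀ b ∈ K, ‖T a - T b‖ ≤ ‖a - b‖ :=
    fun a ha b hb => hTC a (hK.sub ha) b (hK.sub hb)
  have hKb : Bornology.IsBounded K := isBounded_of_weakCompact hKw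
  have hcpl : IsComplete K := hK.closed.isComplete
  obtain ⟨k₀, hk₀⟩ := hK.nonempty
  set d := diam K with hd
  have hdist : ∀ a ∈ K, ∀ b ∈ K, ‖a - b‖ ≤ d := fun a ha b hb => by
    rw [← dist_eq_norm]; exact dist_le_diam_of_mem hKb ha hb
  by_contra hfix
  have hd0 : 0 < d := by
    by_contra hd0
    refine hfix ⟨k₀, hK.sub hk₀, sub_eq_zero.1 (norm_le_zero_iff.1 ?_)⟩
    linarith [hdist (T k₀) (hK.maps hk₀) k₀ hk₀]
  obtain ⟨hc, hc'⟩ : 0 ≤ c ∧ 0 ≤ c' := by
    obtain ⟨z, hz⟩ : ∃ z : X, 0 < ‖z‖ :=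
      ⟨T k₀ - k₀, norm_pos_iff.2 fun h => hfix ⟨k₀, hK.sub hk₀, sub_eq_zero.1 h⟩⟩
    exact ⟨nonneg_of_mul_nonneg_left ((norm_nonneg _).trans (hP.norm_sub_le ∅ z)) hz,
      nonneg_of_mul_nonneg_left ((norm_nonneg _).trans (hP.norm_le ∅ z)) hz⟩
  -- approximate fixed points and a weak cluster point
  have hx : ∀ n : ℕ, ∃ z ∈ K, ‖T z - z‖ ≤ d / (n + 1) := fun n => by
    have hs1 : (1 : ℝ) / (n + 1) ≤ 1 := by
      rw [div_le_one (by positivity)]; linarith [n.cast_nonneg (α := ℝ)]
    obtain ⟨z, hz, heq⟩ := exists_resolvent hK.convex hcpl hK.maps hT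
      (s := 1 / (n + 1)) (by positivity) hs1 hk₀
    refine ⟨z, hz, (norm_map_sub_resolvent_le (d := d) (by positivity) heq
      (hdist _ (hK.maps hz) _ hk₀)).trans_eq ?_⟩
    rw [one_div_mul_eq_div]
  choose x hxK hxT using hx
  obtain ⟨w₀, hw₀, hcl⟩ := hKw.exists_mapClusterPt (f := atTop)
    (u := fun n => toWeakSpace ℝ X (x n))
    (le_principal_iff.2 (mem_map.2 (Eventually.of_forall fun n => mem_image_of_mem _ (hxK n))))
  obtain ⟨b, hbK, rfl⟩ := hw₀
  -- the recursion
  have hstep : ∀ (j : ℕ) (p : ℕ × ℕ), ∃ n' L' : ℕ, p.1 < n' ∧ p.2 < L' ∧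
      (∀ L ≤ p.2, ‖P (Finset.range L) (x n' - b)‖ < 1 / (j + 1)) ∧
      ‖(x n' - b) - P (Finset.range L') (x n' - b)‖ < 1 / (j + 1) := by
    intro j p
    let G : WeakSpace ℝ X → Fin (p.2 + 1) → X :=
      fun z i => P (Finset.range i) ((toWeakSpace ℝ X).symm z)
    have hG : Continuous G :=
      continuous_pi fun i => continuous_weak_of_finite_rank _ (hP.finite_rank _)
    have hcl' := hcl.continuousAt_comp hG.continuousAt
    obtain ⟨n', hn', hn''⟩ := frequently_atTop.1
      (mapClusterPt_iff_frequently.1 hcl' _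
        (ball_mem_nhds _ (show (0 : ℝ) < 1 / (j + 1) by positivity))) (p.1 + 1)
    have hev : ∀ᶠ L in atTop, p.2 < L ∧
        ‖(x n' - b) - P (Finset.range L) (x n' - b)‖ < 1 / (j + 1) := by
      refine (eventually_gt_atTop p.2).and ?_
      filter_upwards [(hP.tendsto (x n' - b)).eventually
        (ball_mem_nhds _ (show (0 : ℝ) < 1 / (j + 1) by positivity))] with L hL
      rwa [← dist_eq_norm, dist_comm]
    obtain ⟨L', hL', hL''⟩ := hev.exists
    refine ⟨n', L', hn', hL', fun L hL => ?_, hL''⟩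
    have := (dist_pi_lt_iff (by positivity)).1 hn'' ⟨L, by omega⟩
    simpa [G, dist_eq_norm, ← map_sub] using this
  choose nn LL hnn hLL hhead htail using hstep
  let q : ℕ → ℕ × ℕ := fun j => Nat.rec (0, 0) (fun j p => (nn j p, LL j p)) j
  let n : ℕ → ℕ := fun j => (q (j + 1)).1
  let L : ℕ → ℕ := fun j => (q j).2
  have hn : StrictMono n := strictMono_nat_of_lt_succ fun j => hnn (j + 1) (q (j + 1))
  have hL : StrictMono L := strictMono_nat_of_lt_succ fun j => hLL j (q j)
  let u' : ℕ → X := fun j => x (n j) - b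
  let W : ℕ → Finset ℕ := fun j => Finset.Ico (L j) (L (j + 1))
  have hWd : Pairwise fun i j => Disjoint (W i) (W j) := fun i j hij => by
    refine Finset.disjoint_left.2 fun k h1 h2 => ?_
    simp only [W, Finset.mem_Ico] at h1 h2
    rcases hij.lt_or_gt with h | h
    · have := hL.monotone (show i + 1 ≤ j by omega); omega
    · have := hL.monotone (show j + 1 ≤ i by omega); omega
  have hWu : ∀ j, ‖u' j - P (W j) (u' j)‖ ≤ 2 / (j + 1) := fun j => by
    have h1 : ‖P (Finset.range (L j)) (u' j)‖ < 1 / (j + 1) := hhead j (q j) _ le_rfl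
    have h2 : ‖u' j - P (Finset.range (L (j + 1))) (u' j)‖ < 1 / (j + 1) := htail j (q j)
    rw [hP.map_range_Ico (hL.monotone j.le_succ)] at h2
    have h3 : u' j - P (W j) (u' j) = (u' j - (P (Finset.range (L j)) + P (W j)) (u' j))
        + P (Finset.range (L j)) (u' j) := by simp; abel
    rw [h3, show (2 : ℝ) / (j + 1) = 1 / (j + 1) + 1 / (j + 1) by ring]
    exact (norm_add_le _ _).trans (add_le_add h2.le h1.le)
  have hη : Tendsto (fun j => ‖T (x (n j)) - x (n j)‖) atTop (𝓝 0) := by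
    refine squeeze_zero (fun j => norm_nonneg _) (fun j => hxT (n j)) ?_
    have := (tendsto_one_div_add_atTop_nhds_zero_nat (𝕜 := ℝ)).const_mul d
    simpa [Function.comp_def, div_eq_mul_inv] using this.comp hn.tendsto_atTop
  have hnull : Tendsto (fun j => toWeakSpace ℝ X (x (n j))) atTop (𝓝 (toWeakSpace ℝ X b)) := by
    refine hKw.tendsto_nhds_of_unique_mapClusterPt
      (Eventually.of_forall fun j => mem_image_of_mem _ (hxK _)) ?_
    rintro _ ⟨a, -, rfl⟩ ha
    congr 1
    have key : ∀ N, P (Finset.range N) a = P (Finset.range N) b := fun N => by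
      have h1 : MapClusterPt (P (Finset.range N) a) atTop
          (fun j => P (Finset.range N) (x (n j))) := by
        simpa [Function.comp_def] using ha.continuousAt_comp
          (continuous_weak_of_finite_rank _ (hP.finite_rank (Finset.range N))).continuousAt
      have h2 : Tendsto (fun j => P (Finset.range N) (x (n j))) atTop
          (𝓝 (P (Finset.range N) b)) := by
        rw [tendsto_iff_norm_sub_tendsto_zero]
        refine squeeze_zero' (Eventually.of_forall fun j => norm_nonneg _) ?_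
          tendsto_one_div_add_atTop_nhds_zero_nat
        filter_upwards [eventually_ge_atTop N] with j hj
        rw [← map_sub]
        exact (hhead j (q j) N (hj.trans hL.le_apply)).le
      exact eq_of_nhds_neBot (h1.clusterPt.mono h2)
    exact tendsto_nhds_unique ((hP.tendsto a).congr key) (hP.tendsto b)
  -- the normalised sequence
  have hnorm : Tendsto (fun j => ‖u' j‖) atTop (𝓝 d) := by
    refine Metric.tendsto_nhds.2 fun ε hε => ?_
    obtain ⟨s, hs, hfar⟩ := hK.far hKw hT hbK hε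
    filter_upwards [hη.eventually (eventually_le_nhds hs)] with j hj
    have h1 := hfar _ (hxK (n j)) hj
    have h2 := hdist _ (hxK (n j)) _ hbK
    rw [Real.dist_eq, abs_sub_lt_iff]
    constructor <;> linarith
  obtain ⟨m, D, hm, hgap, hfar⟩ := hav (fun j => d⁻¹ • u' j)
    (fun i j => by
      rw [← smul_sub, norm_smul_of_nonneg (inv_nonneg.2 hd0.le), inv_mul_le_one₀ hd0]
      simpa [u'] using hdist _ (hxK (n i)) _ (hxK (n j)))
    (by simpa [norm_smul, abs_of_pos hd0, hd0.ne'] using hnorm.const_mul d⁻¹)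
    (fun f => by
      have h1 : Tendsto (fun j => f (x (n j))) atTop (𝓝 (f b)) :=
        ((WeakBilin.eval_continuous (topDualPairing ℝ X).flip f).tendsto _).comp hnull
      simpa [u'] using (h1.sub_const (f b)).const_mul d⁻¹)
  -- constants
  set g := (m : ℝ) - c * (m - 1) - c' * D with hg
  have hg0 : 0 < g := by linarith
  have hm0 : (0 : ℝ) < m := by exact_mod_cast hm
  set δ := d * g / (2 * m * (c + 2)) with hδ
  have hδ0 : 0 < δ := by positivity
  obtain ⟨s₁, hs₁, hK_far⟩ := hK.far hKw hT hbK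
    (show (0 : ℝ) < d * g / (2 * m) by positivity)
  set s := min (s₁ / d) 1 with hsdef
  have hs : 0 < s := lt_min (by positivity) one_pos
  have hs1 : s ≤ 1 := min_le_right _ _
  obtain ⟨y, hyK, hy⟩ := exists_resolvent hK.convex hcpl hK.maps hT hs hs1 hbK
  have hWy : Tendsto (fun j => P (W j) (y - b)) atTop (𝓝 0) := by
    have := ((hP.tendsto (y - b)).comp (hL.tendsto_atTop.comp (tendsto_add_atTop_nat 1))).sub
      ((hP.tendsto (y - b)).comp hL.tendsto_atTop)
    rw [sub_self] at this
    refine this.congr fun j => ?_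
    simp [W, hP.map_range_Ico (hL.monotone j.le_succ)]
    abel
  have hev : ∀ᶠ j in atTop, ‖T (x (n j)) - x (n j)‖ ≤ δ * s ∧ 2 / ((j : ℝ) + 1) ≤ δ ∧
      ‖P (W j) (y - b)‖ ≤ δ := by
    refine (hη.eventually (eventually_le_nhds (by positivity))).and (.and ?_ ?_)
    · have := (tendsto_one_div_add_atTop_nhds_zero_nat (𝕜 := ℝ)).const_mul 2
      simp only [mul_one_div, mul_zero] at this
      exact this.eventually (eventually_le_nhds hδ0)
    · exact (tendsto_zero_iff_norm_tendsto_zero.1 hWy).eventually (eventually_le_nhds hδ0)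
  obtain ⟨N, hN⟩ := eventually_atTop.1 hev
  obtain ⟨t, ht, htN, htsum⟩ := hfar N
  have hne' : (Finset.univ : Finset (Fin m)).Nonempty := ⟨⟨0, hm⟩, Finset.mem_univ _⟩
  -- the average and its resolvent
  set a := (m : ℝ)⁻¹ • ∑ i, x (n (t i)) with ha
  have haK : a ∈ K := by
    rw [ha, Finset.smul_sum]
    exact hK.convex.sum_mem (fun i _ => inv_nonneg.2 hm0.le) (by simp [hm0.ne'])
      fun i _ => hxK _
  have hab : ‖a - b‖ ≤ d * D := by
    have h1 : a - b = ((m : ℝ)⁻¹ * d) • ∑ i, d⁻¹ • u' (t i) := by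
      rw [← Finset.smul_sum, smul_smul, mul_assoc, mul_inv_cancel₀ hd0.ne', mul_one,
        Finset.sum_sub_distrib, smul_sub, ha, Finset.sum_const, Finset.card_univ,
        Fintype.card_fin, ← Nat.cast_smul_eq_nsmul ℝ, smul_smul, inv_mul_cancel₀ hm0.ne',
        one_smul]
    rw [h1, norm_smul_of_nonneg (by positivity)]
    calc (m : ℝ)⁻¹ * d * ‖∑ i, d⁻¹ • u' (t i)‖ ≤ (m : ℝ)⁻¹ * d * (m * D) := by gcongr
      _ = d * D := by field_simp
  have hax : ∀ i, ‖a - x (n (t i))‖ ≤ d * (m - 1) / m := fun i => by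
    have h1 : a - x (n (t i)) = (m : ℝ)⁻¹ • ∑ k, (x (n (t k)) - x (n (t i))) := by
      rw [Finset.sum_sub_distrib, smul_sub, ha, Finset.sum_const, Finset.card_univ,
        Fintype.card_fin, ← Nat.cast_smul_eq_nsmul ℝ, smul_smul, inv_mul_cancel₀ hm0.ne',
        one_smul]
    rw [h1, norm_smul_of_nonneg (inv_nonneg.2 hm0.le), div_eq_inv_mul]
    gcongr
    refine (norm_sum_le _ _).trans ?_
    rw [← Finset.add_sum_erase _ _ (Finset.mem_univ i), sub_self, norm_zero, zero_add]
    refine (Finset.sum_le_card_nsmul _ _ d fun k _ => hdist _ (hxK _) _ (hxK _)).trans_eq ?_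
    rw [Finset.card_erase_of_mem (Finset.mem_univ i), Finset.card_univ, Fintype.card_fin,
      nsmul_eq_mul, Nat.cast_sub hm, Nat.cast_one, mul_comm]
  obtain ⟨v, hvK, hv⟩ := exists_resolvent hK.convex hcpl hK.maps hT hs hs1 haK
  have hvT : ‖T v - v‖ ≤ s₁ :=
    (norm_map_sub_resolvent_le hs hv (hdist _ (hK.maps hvK) _ haK)).trans
      ((le_div_iff₀ hd0).1 (min_le_left _ _))
  have hvb := hK_far v hvK hvT
  have hvx : ∀ i, ‖v - x (n (t i))‖ ≤ d * (m - 1) / m + δ := fun i => by
    refine (norm_resolvent_sub_le hT hs hs1 hvK (hxK _) hv).trans (add_le_add (hax i) ?_)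
    rw [div_le_iff₀ hs]
    exact (hN _ (htN i)).1
  have hvy : ‖v - y‖ ≤ d * D :=
    (norm_resolvent_sub_resolvent_le hT hs hs1 hvK hyK hv hy).trans hab
  -- the decomposition of `v - b`
  have hdec : ∀ i, v - b = ((v - x (n (t i))) - P (W (t i)) (v - x (n (t i))))
      + (u' (t i) - P (W (t i)) (u' (t i))) + P (W (t i)) (v - y) + P (W (t i)) (y - b) :=
    fun i => by simp [u', map_sub]; abel
  have hsum : (m : ℝ) • (v - b) = ∑ i : Fin m, (v - b) := by
    rw [Finset.sum_const, Finset.card_univ, Fintype.card_fin, Nat.cast_smul_eq_nsmul]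
  have hU : ‖∑ i, P (W (t i)) (v - y)‖ ≤ c' * (d * D) := by
    rw [← sum_apply, ← hP.map_biUnion (fun i => W (t i))
      (fun i j hij => hWd (ht.injective.ne hij))]
    exact (hP.norm_le _ _).trans (by gcongr)
  have hbound : m * ‖v - b‖ ≤ m * (c * (d * (m - 1) / m + δ)) + m * δ + c' * (d * D) + m * δ := by
    rw [← norm_smul_of_nonneg hm0.le, hsum, Finset.sum_congr rfl fun i _ => hdec i,
      Finset.sum_add_distrib, Finset.sum_add_distrib, Finset.sum_add_distrib]
    refine (norm_add_le _ _).trans (add_le_add ((norm_add_le _ _).trans (add_le_add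
      ((norm_add_le _ _).trans (add_le_add ?_ ?_)) hU)) ?_)
    · refine (norm_sum_le_of_le _ fun i _ => ((hP.norm_sub_le _ _).trans
        (mul_le_mul_of_nonneg_left (hvx i) hc))).trans_eq ?_
      simp
    · refine (norm_sum_le_of_le _ fun i _ => (hWu _).trans (hN _ (htN i)).2.1).trans_eq ?_
      simp
    · refine (norm_sum_le_of_le _ fun i _ => (hN _ (htN i)).2.2).trans_eq ?_
      simp
  have h1 : (m : ℝ) * (d * g / (2 * m)) = d * g / 2 := by field_simp
  have h2 : (m : ℝ) * δ * (c + 2) = d * g / 2 := by rw [hδ]; field_simp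
  have h3 : (m : ℝ) * (c * (d * (m - 1) / m)) = c * d * (m - 1) := by field_simp
  nlinarith [mul_lt_mul_of_pos_left hvb hm0]

/-- The canonical embedding being onto turns closed bounded convex sets into weakly compact ones. -/
theorem fpp_of_weakFPP (hR : Reflexive X) (h : WeakFPP X) : FPP X := by
  intro C T hne hconv hcl hbd hmaps hT
  refine h C T hne hconv ?_ hmaps hT
  rw [← (weakClosed_of_convex hconv hcl).closure_eq]
  refine NormedSpace.isCompact_closure_of_isBounded ℝ X _ ?_ fun φ _ => ?_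
  · rwa [preimage_image_eq _ (toWeakSpace ℝ X).injective]
  · obtain ⟨z, hz⟩ := hR (WeakDual.toStrongDual φ)
    exact ⟨toWeakSpace ℝ X z, DFunLike.ext _ _ fun f => congrArg (fun ψ => ψ f) hz⟩

end Vale.Agent.P079.Averages
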