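import Vale.Agent.P079.Averages.Defs

/-!
# Minimal invariant sets and the Goebel-Karlovitz lemma
-/

namespace Vale.Agent.P079.Averages

open Filter Topology Set Metric

variable {X : Type*} [NormedAddCommGroup X] [NormedSpace ℝ X]

theorem isClosed_of_weakCompact {C : Set X} (h : IsCompact (toWeakSpace ℝ X '' C)) :
    IsClosed C := by
  have h' : IsClosed (toWeakSpaceCLM ℝ X ⁻¹' (toWeakSpace ℝ X '' C)) :=
    h.isClosed.preimage (map_continuous _)
  have : toWeakSpaceCLM ℝ X ⁻¹' (toWeakSpace ℝ X '' C) = C := by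
    ext x; simp
  rwa [this] at h'

theorem weakClosed_of_convex {K : Set X} (hc : Convex ℝ K) (hK : IsClosed K) :
    IsClosed (toWeakSpace ℝ X '' K) := by
  rw [← hK.closure_eq, hc.toWeakSpace_closure ℝ]
  exact isClosed_closure

theorem weakCompact_subset {C K : Set X} (h : IsCompact (toWeakSpace ℝ X '' C)) (hKC : K ⊆ C)
    (hc : Convex ℝ K) (hK : IsClosed K) : IsCompact (toWeakSpace ℝ X '' K) :=
  h.of_isClosed_subset (weakClosed_of_convex hc hK) (image_mono hKC)

theorem isBounded_of_weakCompact {C : Set X} (h : IsCompact (toWeakSpace ℝ X '' C)) :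
    Bornology.IsBounded C := by
  obtain ⟨M, hM⟩ := banach_steinhaus
    (g := fun x : C => NormedSpace.inclusionInDoubleDual ℝ X (x : X)) (fun f => by
    have hc : Continuous fun z : WeakSpace ℝ X => f ((toWeakSpace ℝ X).symm z) :=
      WeakBilin.eval_continuous _ f
    obtain ⟨M, hM⟩ := (h.image hc).isBounded.exists_norm_le
    exact ⟨M, fun x => hM _ ⟨_, mem_image_of_mem _ x.2, by simp⟩⟩)
  refine isBounded_iff_forall_norm_le.2 ⟨M, fun x hx => le_trans ?_ (hM ⟨x, hx⟩)⟩
  exact ((NormedSpace.inclusionInDoubleDualLi (𝕜 := ℝ) (E := X)).norm_map x).ge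

/-- A minimal invariant closed convex set. -/
structure IsMinimal (T : X → X) (C K : Set X) : Prop where
  sub : K ⊆ C
  convex : Convex ℝ K
  closed : IsClosed K
  nonempty : K.Nonempty
  maps : MapsTo T K K
  min : ∀ L, L ⊆ K → Convex ℝ L → IsClosed L → L.Nonempty → MapsTo T L L → L = K

theorem exists_isMinimal {C : Set X} {T : X → X} (hne : C.Nonempty) (hc : Convex ℝ C)
    (hw : IsCompact (toWeakSpace ℝ X '' C)) (hT : MapsTo T C C) :
    ∃ K, IsMinimal T C K := by
  let S : Set (Set X) := {K | K ⊆ C ∧ Convex ℝ K ∧ IsClosed K ∧ K.Nonempty ∧ MapsTo T K K}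
  have hCS : C ∈ S := ⟨subset_rfl, hc, isClosed_of_weakCompact hw, hne, hT⟩
  obtain ⟨K, -, hK⟩ := zorn_superset_nonempty S (fun c hcS hchain hcne => by
    refine ⟨⋂₀ c, ⟨?_, ?_, ?_, ?_, ?_⟩, fun s hs => sInter_subset_of_mem hs⟩
    · obtain ⟨s, hs⟩ := hcne
      exact (sInter_subset_of_mem hs).trans (hcS hs).1
    · exact convex_sInter fun s hs => (hcS hs).2.1
    · exact isClosed_sInter fun s hs => (hcS hs).2.2.1
    · have := hcne.to_subtype
      obtain ⟨z, hz⟩ := IsCompact.nonempty_iInter_of_directed_nonempty_isCompact_isClosed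
        (fun s : c => toWeakSpace ℝ X '' (s : Set X))
        (fun s t => by
          rcases hchain.total s.2 t.2 with h | h
          · exact ⟨s, subset_rfl, image_mono h⟩
          · exact ⟨t, image_mono h, subset_rfl⟩)
        (fun s => (hcS s.2).2.2.2.1.image _)
        (fun s => weakCompact_subset hw (hcS s.2).1 (hcS s.2).2.1 (hcS s.2).2.2.1)
        (fun s => weakClosed_of_convex (hcS s.2).2.1 (hcS s.2).2.2.1)
      refine ⟨(toWeakSpace ℝ X).symm z, fun s hs => ?_⟩
      obtain ⟨x, hx, hxz⟩ := mem_iInter.1 hz ⟨s, hs⟩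
      rwa [← hxz, LinearEquiv.symm_apply_apply]
    · intro x hx
      exact mem_sInter.2 fun s hs => (hcS hs).2.2.2.2 (mem_sInter.1 hx s hs)) C hCS
  exact ⟨K, hK.1.1, hK.1.2.1, hK.1.2.2.1, hK.1.2.2.2.1, hK.1.2.2.2.2,
    fun L h1 h2 h3 h4 h5 => subset_antisymm h1 (hK.2 ⟨h1.trans hK.1.1, h2, h3, h4, h5⟩ h1)⟩

variable {T : X → X} {C K : Set X}

/-- Goebel-Karlovitz: almost fixed points are almost a diameter away from every point. -/
theorem IsMinimal.far (hK : IsMinimal T C K) (hw : IsCompact (toWeakSpace ℝ X '' K))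
    (hT : ∀ a ∈ K, ∀ b ∈ K, ‖T a - T b‖ ≤ ‖a - b‖) {k : X} (hk : k ∈ K) {ε : ℝ} (hε : 0 < ε) :
    ∃ s : ℝ, 0 < s ∧ ∀ w ∈ K, ‖T w - w‖ ≤ s → diam K - ε < ‖w - k‖ := by
  by_contra hcon
  push Not at hcon
  choose w hwK hw1 hw2 using fun n : ℕ => hcon (1 / (n + 1)) (by positivity)
  set ρ := diam K - ε with hρ
  have ht : Tendsto (fun n => ‖T (w n) - w n‖) atTop (𝓝 0) :=
    squeeze_zero (fun n => norm_nonneg _) hw1 tendsto_one_div_add_atTop_nhds_zero_nat
  let A : Set X := K ∩ {z | ∀ δ > 0, ∀ᶠ n in atTop, ‖z - w n‖ ≤ ρ + δ}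
  have hA : A = K := by
    refine hK.min A inter_subset_left ?_ ?_ ⟨k, hk, fun δ hδ => Eventually.of_forall fun n => by
      rw [norm_sub_rev]; linarith [hw2 n]⟩ ?_
    · intro x hx y hy a b ha hb hab
      refine ⟨hK.convex hx.1 hy.1 ha hb hab, fun δ hδ => ?_⟩
      filter_upwards [hx.2 δ hδ, hy.2 δ hδ] with n h1 h2
      exact le_of_eq_of_le (dist_eq_norm _ _).symm ((convex_closedBall (w n) (ρ + δ))
        (by simpa [dist_eq_norm] using h1) (by simpa [dist_eq_norm] using h2) ha hb hab)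
    · refine isClosed_of_closure_subset fun z hz => ?_
      refine ⟨hK.closed.closure_subset (closure_mono inter_subset_left hz), fun δ hδ => ?_⟩
      obtain ⟨z', hz', hd⟩ := Metric.mem_closure_iff.1 hz (δ / 2) (half_pos hδ)
      filter_upwards [hz'.2 (δ / 2) (half_pos hδ)] with n hn
      rw [dist_eq_norm] at hd
      linarith [norm_sub_le_norm_sub_add_norm_sub z z' (w n)]
    · intro z hz
      refine ⟨hK.maps hz.1, fun δ hδ => ?_⟩
      filter_upwards [hz.2 (δ / 2) (half_pos hδ),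
        ht.eventually (gt_mem_nhds (half_pos hδ))] with n h1 h2
      linarith [norm_sub_le_norm_sub_add_norm_sub (T z) (T (w n)) (w n), hT z hz.1 _ (hwK n)]
  obtain ⟨w₀, hw₀, hcl⟩ := hw.exists_mapClusterPt (f := atTop) (u := fun n => toWeakSpace ℝ X (w n))
    (le_principal_iff.2 (mem_map.2 (Eventually.of_forall fun n => mem_image_of_mem _ (hwK n))))
  obtain ⟨a₀, ha₀, rfl⟩ := hw₀
  let B : Set X := K ∩ {a | ∀ z ∈ K, ‖a - z‖ ≤ ρ}
  have ha₀B : a₀ ∈ B := by
    refine ⟨ha₀, fun z hz => le_of_forall_pos_le_add fun δ hδ => ?_⟩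
    have hz' : z ∈ A := hA ▸ hz
    have hcl' : IsClosed (toWeakSpace ℝ X '' closedBall z (ρ + δ)) :=
      weakClosed_of_convex (convex_closedBall _ _) isClosed_closedBall
    have := hcl'.mem_of_mapClusterPt hcl (mem_map.2 ?_)
    · obtain ⟨y, hy, hy'⟩ := this
      rw [(toWeakSpace ℝ X).injective hy'] at hy
      simpa [dist_eq_norm] using hy
    · filter_upwards [hz'.2 δ hδ] with n hn
      exact mem_image_of_mem _ (by simpa [dist_eq_norm, norm_sub_rev] using hn)
  have hB : B = K := by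
    refine hK.min B inter_subset_left ?_ ?_ ⟨a₀, ha₀B⟩ ?_
    · intro x hx y hy a b ha hb hab
      refine ⟨hK.convex hx.1 hy.1 ha hb hab, fun z hz => ?_⟩
      exact le_of_eq_of_le (dist_eq_norm _ _).symm ((convex_closedBall z ρ)
        (by simpa [dist_eq_norm] using hx.2 z hz) (by simpa [dist_eq_norm] using hy.2 z hz)
        ha hb hab)
    · refine isClosed_of_closure_subset fun a ha => ?_
      refine ⟨hK.closed.closure_subset (closure_mono inter_subset_left ha), fun z hz => ?_⟩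
      have : a ∈ closedBall z ρ := closure_minimal
        (fun a ha => by simpa [dist_eq_norm] using ha.2 z hz) isClosed_closedBall ha
      simpa [dist_eq_norm] using this
    · intro a ha
      refine ⟨hK.maps ha.1, fun z hz => ?_⟩
      have h' : K ∩ closedBall (T a) ρ = K := hK.min _ inter_subset_left
        (hK.convex.inter (convex_closedBall _ _)) (hK.closed.inter isClosed_closedBall)
        ⟨T a, hK.maps ha.1, mem_closedBall_self (le_trans (norm_nonneg _)
          (ha.2 a ha.1))⟩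
        (fun y hy => ⟨hK.maps hy.1, by
          rw [mem_closedBall, dist_eq_norm, norm_sub_rev]
          exact (hT a ha.1 y hy.1).trans (ha.2 y hy.1)⟩)
      have hmem : z ∈ K ∩ closedBall (T a) ρ := h'.symm ▸ hz
      simpa [dist_eq_norm, norm_sub_rev] using hmem.2
  have h0 : 0 ≤ ρ := le_trans (norm_nonneg _) (ha₀B.2 a₀ ha₀)
  have : diam K ≤ ρ := diam_le_of_forall_dist_le h0 fun x hx y hy => by
    have hxB : x ∈ B := hB.symm ▸ hx
    simpa [dist_eq_norm] using hxB.2 y hy
  linarith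

/-- The resolvent of a distance-nonincreasing map. -/
theorem exists_resolvent (hK : Convex ℝ K) (hcpl : IsComplete K) (hm : MapsTo T K K)
    (hT : ∀ a ∈ K, ∀ b ∈ K, ‖T a - T b‖ ≤ ‖a - b‖) {s : ℝ} (hs : 0 < s) (hs1 : s ≤ 1)
    {a : X} (ha : a ∈ K) : ∃ z ∈ K, s • a + (1 - s) • T z = z := by
  let g : X → X := fun z => s • a + (1 - s) • T z
  have hg : MapsTo g K K := fun z hz => hK ha (hm hz) hs.le (by linarith) (by ring)
  have hc : ContractingWith (1 - s).toNNReal (hg.restrict g K K) := by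
    refine ⟨?_, LipschitzWith.of_dist_le_mul fun x y => ?_⟩
    · exact Real.toNNReal_lt_one.2 (by linarith)
    · rw [Real.coe_toNNReal _ (by linarith)]
      change dist (g x) (g y) ≤ _ * dist (x : X) y
      simp only [g, dist_add_left, dist_smul₀, Real.norm_eq_abs,
        abs_of_nonneg (show (0 : ℝ) ≤ 1 - s by linarith)]
      gcongr
      simpa [dist_eq_norm] using hT x x.2 y y.2
  obtain ⟨z, hz, hfix, -⟩ := hc.exists_fixedPoint' hcpl hg (x := a) ha (edist_ne_top _ _)
  exact ⟨z, hz, hfix⟩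

end Vale.Agent.P079.Averages
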